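import Vale.Agent.P065.UB.Final.Kill

/-!
P065: upper bounds with exponents below `4 / 3` and `1 / 3` for the maximum number `h(n)` of
halving lines and for the maximum number `e_k(n)` of `k`-sets of `n` points in the plane, no three
collinear, together with lower bounds in which the loss against a power of `n` is only polynomial
in `log log n`.
-/

namespace Vale.Agent.Results.P065.HalvingBounds

open Vale.Agent.P065

/-- (a) There are `c > 0` and `C` such that `n` points in the plane, no three collinear, have at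
most `C n ^ (4 / 3 - c)` halving lines and at most `C n k ^ (1 / 3 - c)` `k`-sets, `1 ≤ k ≤ n / 2`.
(b) `h(n) ≥ n ^ (1 + c / (log log n) ^ 4)` for all large even `n`,
(c) `e_k(n) ≥ n k ^ (c / (log log k) ^ 4)` for all large `k` and all `n ≥ 2 k`. -/
theorem result :
    (∃ c C : ℝ, 0 < c ∧ (∀ P : Finset (ℝ × ℝ), GenPos P →
        (halvingNumber P : ℝ) ≤ C * (P.card : ℝ) ^ (4 / 3 - c)) ∧
      ∀ (P : Finset (ℝ × ℝ)) (k : ℕ), GenPos P → 1 ≤ k → 2 * k ≤ P.card →
        (kSetNumber P k : ℝ) ≤ C * P.card * (k : ℝ) ^ (1 / 3 - c)) ∧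
    (∃ (c : ℝ) (N : ℕ), 0 < c ∧ ∀ n : ℕ, N ≤ n → Even n →
      ∃ P : Finset (ℝ × ℝ), P.card = n ∧ GenPos P ∧
        (n : ℝ) ^ (1 + c / Real.log (Real.log n) ^ 4) ≤ halvingNumber P) ∧
    (∃ (c : ℝ) (K : ℕ), 0 < c ∧ ∀ k n : ℕ, K ≤ k → 2 * k ≤ n →
      ∃ P : Finset (ℝ × ℝ), P.card = n ∧ GenPos P ∧
        (n : ℝ) * (k : ℝ) ^ (c / Real.log (Real.log k) ^ 4) ≤ kSetNumber P k) :=
  UB.Final.bounds

end Vale.Agent.Results.P065.HalvingBounds
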