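import Vale.Agent.P065.W.Main4

/-!
P065: lower bounds for the maximum number `h(n)` of halving lines and for the maximum number
`e_k(n)` of `k`-sets of `n` points in the plane, no three collinear: the loss against a power of
`n` is only polynomial in `log log n`.
-/

namespace Vale.Agent.Results.P065.HalvingLogLog

open Vale.Agent.P065

/-- `h(n) ≥ n ^ (1 + c / (log log n) ^ 4)` for all large even `n`, and
`e_k(n) ≥ n * k ^ (c / (log log k) ^ 4)` for all large `k` and all `n ≥ 2 k`, stated through the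
point sets that attain these numbers. -/
theorem result :
    (∃ (c : ℝ) (N : ℕ), 0 < c ∧ ∀ n : ℕ, N ≤ n → Even n →
      ∃ P : Finset (ℝ × ℝ), P.card = n ∧ GenPos P ∧
        (n : ℝ) ^ (1 + c / Real.log (Real.log n) ^ 4) ≤ halvingNumber P) ∧
    (∃ (c : ℝ) (K : ℕ), 0 < c ∧ ∀ k n : ℕ, K ≤ k → 2 * k ≤ n →
      ∃ P : Finset (ℝ × ℝ), P.card = n ∧ GenPos P ∧
        (n : ℝ) * (k : ℝ) ^ (c / Real.log (Real.log k) ^ 4) ≤ kSetNumber P k) := by
  obtain ⟨⟨c, N, hc, h⟩, ⟨c', K, hc', h'⟩⟩ := W.main4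
  constructor
  · refine ⟨c, N + 1, hc, fun n hn he => ?_⟩
    have h1 := (h n (by omega) he).trans (by exact_mod_cast gmax_le_hmax n :
      ((gmax n : ℕ) : ℝ) ≤ hmax n)
    have hn0 : (0 : ℝ) < n := by exact_mod_cast (by omega : 0 < n)
    have hpos : (0 : ℝ) < hmax n := lt_of_lt_of_le (Real.rpow_pos_of_pos hn0 _) h1
    have hpos' : 0 < hmax n := by exact_mod_cast hpos
    have hne : {m | ∃ P : Finset (ℝ × ℝ), P.card = n ∧ GenPos P ∧ halvingNumber P = m}.Nonempty := by
      by_contra hcon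
      rw [Set.not_nonempty_iff_eq_empty] at hcon
      unfold hmax at hpos'
      rw [hcon, csSup_empty] at hpos'
      exact lt_irrefl _ hpos'
    obtain ⟨P, hP, hg, hm⟩ := Nat.sSup_mem hne (bddAbove_hmax n)
    refine ⟨P, hP, hg, ?_⟩
    rw [hm]
    exact h1
  · refine ⟨c', K + 1, hc', fun k n hk hn => ?_⟩
    have h1 := h' k n (by omega) hn
    have hn0 : (0 : ℝ) < n := by exact_mod_cast (by omega : 0 < n)
    have hk0 : (0 : ℝ) < k := by exact_mod_cast (by omega : 0 < k)
    have hpos : (0 : ℝ) < emax k n :=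
      lt_of_lt_of_le (mul_pos hn0 (Real.rpow_pos_of_pos hk0 _)) h1
    have hpos' : 0 < emax k n := by exact_mod_cast hpos
    have hne : {m | ∃ P : Finset (ℝ × ℝ), P.card = n ∧ GenPos P ∧ kSetNumber P k = m}.Nonempty := by
      by_contra hcon
      rw [Set.not_nonempty_iff_eq_empty] at hcon
      unfold emax at hpos'
      rw [hcon, csSup_empty] at hpos'
      exact lt_irrefl _ hpos'
    obtain ⟨P, hP, hg, hm⟩ := Nat.sSup_mem hne (bddAbove_emax k n)
    refine ⟨P, hP, hg, ?_⟩
    rw [hm]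
    exact h1

end Vale.Agent.Results.P065.HalvingLogLog
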