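import Vale.Agent.P065.UB.P.Fin
import Vale.Agent.P065.UB.Final.Lower

/-!
P065: an upper bound with exponent below `4 / 3` for the number of halving lines and of `k`-sets of
`n` points, no three collinear, with integer coordinates of absolute value at most `n ^ A`, and the
general lower bounds.
-/

namespace Vale.Agent.Results.P065.HalvingPolyUpper

open Vale.Agent.P065

/-- (a) For every `A` there are `c > 0` and `C` such that `n` points with integer coordinates of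
absolute value at most `n ^ A`, no three collinear, have at most `C n ^ (4 / 3 - c)` halving lines
and at most `C n ^ (4 / 3 - c)` `k`-sets for every `k`.
(b) `h(n) ≥ n ^ (1 + c / (log log n) ^ 4)` for all large even `n`,
(c) `e_k(n) ≥ n k ^ (c / (log log k) ^ 4)` for all large `k` and all `n ≥ 2 k`. -/
theorem result :
    (∀ A : ℕ, ∃ c C : ℝ, 0 < c ∧ ∀ P : Finset (ℝ × ℝ), GenPos P →
      (∀ p ∈ P, ∃ x y : ℤ, p = ((x : ℝ), (y : ℝ)) ∧
        |x| ≤ (P.card : ℤ) ^ A ∧ |y| ≤ (P.card : ℤ) ^ A) →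
      (halvingNumber P : ℝ) ≤ C * (P.card : ℝ) ^ (4 / 3 - c) ∧
      ∀ k : ℕ, 1 ≤ k → k + 1 ≤ P.card →
        (kSetNumber P k : ℝ) ≤ C * (P.card : ℝ) ^ (4 / 3 - c)) ∧
    (∃ (c : ℝ) (N : ℕ), 0 < c ∧ ∀ n : ℕ, N ≤ n → Even n →
      ∃ P : Finset (ℝ × ℝ), P.card = n ∧ GenPos P ∧
        (n : ℝ) ^ (1 + c / Real.log (Real.log n) ^ 4) ≤ halvingNumber P) ∧
    (∃ (c : ℝ) (K : ℕ), 0 < c ∧ ∀ k n : ℕ, K ≤ k → 2 * k ≤ n →
      ∃ P : Finset (ℝ × ℝ), P.card = n ∧ GenPos P ∧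
        (n : ℝ) * (k : ℝ) ^ (c / Real.log (Real.log k) ^ 4) ≤ kSetNumber P k) :=
  ⟨UB.P.poly_main, UB.Final.lower⟩

end Vale.Agent.Results.P065.HalvingPolyUpper
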