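import Vale.Agent.P065.HP.FinalS
import Vale.Agent.P065.HP.Main

/-!
P065: the halving and level problems for simple arrangements of pseudolines. The lines dual to a
point set form such an arrangement and the vertices of its middle level are the halving lines of
the point set. For pseudolines the `k`-level can have `c n k ^ (1 / 8)` vertices.
-/

namespace Vale.Agent.Results.P065.PseudolineLevels

open P065HP

/-- (1) The dual lines of `2 k` points, no three collinear and with distinct abscissas, form a
simple arrangement of pseudolines whose `k`-level has as many vertices as the points have halving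
lines. (2) Among all simple arrangements of `n` pseudolines, the `k`-level can have at least
`c n k ^ (1 / 8)` vertices, for all `1 ≤ k ≤ n / 2`. -/
theorem result :
    (∀ (k : ℕ) (p : Fin (2 * k) → ℝ × ℝ), (∀ i j, i ≠ j → (p i).1 ≠ (p j).1) →
      (∀ i j l, i ≠ j → i ≠ l → j ≠ l → orient (p i) (p j) (p l) ≠ 0) →
      IsPseudolineArrangement (dualLines p) ∧ levelVertices (dualLines p) k = halvingLines p) ∧
    ∃ c : ℝ, 0 < c ∧ ∀ n k : ℕ, 1 ≤ k → 2 * k ≤ n →
      ∃ f : Fin n → ℝ → ℝ, IsPseudolineArrangement f ∧
        c * n * (k : ℝ) ^ ((1 : ℝ) / 8) ≤ levelVertices f k :=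
  final_of_core core

end Vale.Agent.Results.P065.PseudolineLevels
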